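import Mathlib

/-!
# P092 Team C, lemma T1, part a: actions, averages, fixed subalgebras

`K` acts by `*`-automorphisms on a complex `*`-algebra `A` with a faithful positive functional.
-/

namespace Vale.Agent.P092.H692

open Module Finset

noncomputable section

/-- An action of a group by `*`-automorphisms of a complex `*`-algebra. -/
structure StAct (K A : Type*) [Group K] [Ring A] [StarRing A] [Algebra ℂ A] where
  tf : K → A →ₗ[ℂ] A
  one' : ∀ a, tf 1 a = a
  mul' : ∀ k l a, tf (k * l) a = tf k (tf l a)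
  map_mul : ∀ k a b, tf k (a * b) = tf k a * tf k b
  map_star : ∀ k a, tf k (star a) = star (tf k a)

/-- A chain of subgroups as in a uniform pro-`p` group. -/
structure Uni {K : Type*} [Group K] (p : ℕ) (N : ℕ → Subgroup K) : Prop where
  zero : N 0 = ⊤
  nrm : ∀ n, (N n).Normal
  anti : ∀ n, N (n + 1) ≤ N n
  fin : ∀ n, (N n).FiniteIndex
  comm : ∀ n, ∀ k : K, ∀ x ∈ N n, k * x * k⁻¹ * x⁻¹ ∈ N (n + 2)
  pow : ∀ n, ∀ x ∈ N n, x ^ p ∈ N (n + 1)
  root : ∀ n, ∀ x ∈ N (n + 1), ∃ y ∈ N n, y ^ p = x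

variable {K A : Type*} [Group K] [Ring A] [StarRing A] [Algebra ℂ A] [StarModule ℂ A]

namespace StAct

variable (α : StAct K A)

omit [StarModule ℂ A] in
theorem inv_tf (k : K) (a : A) : α.tf k⁻¹ (α.tf k a) = a := by
  rw [← α.mul', inv_mul_cancel, α.one']

omit [StarModule ℂ A] in
theorem tf_inv (k : K) (a : A) : α.tf k (α.tf k⁻¹ a) = a := by
  rw [← α.mul', mul_inv_cancel, α.one']

omit [StarModule ℂ A] in
theorem map_one (k : K) : α.tf k 1 = 1 := by
  have h : α.tf k (1 * α.tf k⁻¹ 1) = α.tf k 1 * 1 := by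
    rw [α.map_mul, α.tf_inv]
  rw [one_mul, α.tf_inv, mul_one] at h
  exact h.symm

omit [StarModule ℂ A] in
theorem map_pow (k : K) (a : A) (n : ℕ) : α.tf k (a ^ n) = α.tf k a ^ n := by
  induction n with
  | zero => simp [α.map_one]
  | succ n ih => rw [pow_succ, pow_succ, α.map_mul, ih]

/-- The part of the corner of `f` fixed by the subgroup `M`. -/
def Fx (f : A) (M : Subgroup K) : Submodule ℂ A where
  carrier := {a | f * a = a ∧ a * f = a ∧ ∀ k ∈ M, α.tf k a = a}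
  zero_mem' := by simp
  add_mem' := by
    rintro a b ⟨h1, h2, h3⟩ ⟨h4, h5, h6⟩
    refine ⟨by rw [mul_add, h1, h4], by rw [add_mul, h2, h5], fun k hk => ?_⟩
    rw [_root_.map_add, h3 k hk, h6 k hk]
  smul_mem' := by
    rintro c a ⟨h1, h2, h3⟩
    refine ⟨by rw [mul_smul_comm, h1], by rw [smul_mul_assoc, h2], fun k hk => ?_⟩
    rw [_root_.map_smul, h3 k hk]

/-- `f` is a nonzero projection fixed by `L`, and `L` acts ergodically on the corner of `f`. -/
structure Hm (f : A) (L : Subgroup K) : Prop where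
  ne : f ≠ 0
  sa : star f = f
  id : f * f = f
  fx : ∀ k ∈ L, α.tf k f = f
  erg : ∀ a ∈ α.Fx f L, ∃ c : ℂ, a = c • f

variable {α}

omit [StarModule ℂ A] in
theorem Fx_mono {f : A} {M L : Subgroup K} (h : M ≤ L) : α.Fx f L ≤ α.Fx f M :=
  fun _ ⟨h1, h2, h3⟩ => ⟨h1, h2, fun k hk => h3 k (h hk)⟩

omit [StarModule ℂ A] in
theorem Fx_mul {f : A} {M : Subgroup K} {a b : A} (ha : a ∈ α.Fx f M) (hb : b ∈ α.Fx f M) :
    a * b ∈ α.Fx f M := by
  obtain ⟨h1, h2, h3⟩ := ha
  obtain ⟨h4, h5, h6⟩ := hb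
  exact ⟨by rw [← mul_assoc, h1], by rw [mul_assoc, h5], fun k hk => by
    rw [α.map_mul, h3 k hk, h6 k hk]⟩

omit [StarModule ℂ A] in
theorem Fx_star {f : A} (hf : star f = f) {M : Subgroup K} {a : A} (ha : a ∈ α.Fx f M) :
    star a ∈ α.Fx f M := by
  obtain ⟨h1, h2, h3⟩ := ha
  refine ⟨?_, ?_, fun k hk => by rw [α.map_star, h3 k hk]⟩
  · have := congrArg star h2; rwa [star_mul, hf] at this
  · have := congrArg star h1; rwa [star_mul, hf] at this

omit [StarModule ℂ A] in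
theorem Fx_corner {f g : A} (hfg : f * g = g) (hgf : g * f = g) {M : Subgroup K} :
    α.Fx g M ≤ α.Fx f M := by
  rintro a ⟨h1, h2, h3⟩
  exact ⟨by rw [← h1, ← mul_assoc, hfg], by rw [← h2, mul_assoc, hgf], h3⟩

omit [StarModule ℂ A] in
/-- `L` preserves the fixed points of a normal subgroup. -/
theorem Fx_tf {f : A} {M : Subgroup K} (hM : M.Normal) {k : K} (hf : α.tf k f = f) {a : A}
    (ha : a ∈ α.Fx f M) : α.tf k a ∈ α.Fx f M := by
  obtain ⟨h1, h2, h3⟩ := ha
  refine ⟨?_, ?_, fun l hl => ?_⟩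
  · conv_lhs => rw [← hf]
    rw [← α.map_mul, h1]
  · conv_lhs => rw [← hf]
    rw [← α.map_mul, h2]
  · have h : l * k = k * (k⁻¹ * l * k) := by group
    have h' : k⁻¹ * l * k ∈ M := by
      have := hM.conj_mem l hl k⁻¹
      rwa [inv_inv] at this
    rw [← α.mul', h, α.mul', h3 _ h']

/-! ### Averages over cosets -/

variable (α) in
/-- The sum of the translates by representatives of the cosets of `M` in `L`. -/
def tot (L M : Subgroup K) [Fintype (L ⧸ M.subgroupOf L)] (a : A) : A :=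
  ∑ q : L ⧸ M.subgroupOf L, α.tf (q.out : L) a

omit [StarModule ℂ A] in
theorem tf_coset {L M : Subgroup K} {a : A} (ha : ∀ m ∈ M, α.tf m a = a) {x y : L}
    (h : (x : L ⧸ M.subgroupOf L) = y) : α.tf x a = α.tf y a := by
  rw [QuotientGroup.eq] at h
  have h1 : ((x⁻¹ * y : L) : K) ∈ M := h
  have h2 : (y : K) = x * ((x⁻¹ * y : L) : K) := by push_cast; group
  rw [h2, α.mul', ha _ h1]

omit [StarModule ℂ A] in
theorem tf_tot {L M : Subgroup K} [Fintype (L ⧸ M.subgroupOf L)] {a : A}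
    (ha : ∀ m ∈ M, α.tf m a = a) {k : K} (hk : k ∈ L) :
    α.tf k (α.tot L M a) = α.tot L M a := by
  unfold tot
  rw [map_sum]
  refine Fintype.sum_equiv (MulAction.toPerm (⟨k, hk⟩ : L)) _ _ fun q => ?_
  rw [← α.mul']
  have : ((⟨k, hk⟩ * q.out : L) : L ⧸ M.subgroupOf L) =
      ((MulAction.toPerm (⟨k, hk⟩ : L) q).out : L) := by
    rw [QuotientGroup.out_eq', MulAction.toPerm_apply, ← smul_eq_mul,
      ← MulAction.Quotient.smul_mk, QuotientGroup.out_eq']
  exact tf_coset ha this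

omit [StarModule ℂ A] in
theorem tot_mem {f : A} {L M : Subgroup K} [Fintype (L ⧸ M.subgroupOf L)]
    (hf : ∀ k ∈ L, α.tf k f = f) {a : A} (ha : a ∈ α.Fx f M) : α.tot L M a ∈ α.Fx f L := by
  obtain ⟨h1, h2, h3⟩ := ha
  refine ⟨?_, ?_, fun k hk => tf_tot h3 hk⟩
  · unfold tot
    rw [Finset.mul_sum]
    refine Finset.sum_congr rfl fun q _ => ?_
    conv_lhs => rw [← hf _ q.out.2]
    rw [← α.map_mul, h1]
  · unfold tot
    rw [Finset.sum_mul]
    refine Finset.sum_congr rfl fun q _ => ?_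
    conv_lhs => rw [← hf _ q.out.2]
    rw [← α.map_mul, h2]

end StAct

/-- A faithful positive invariant state. -/
structure Sta (α : StAct K A) (τ : A →ₗ[ℂ] ℂ) : Prop where
  re : ∀ a, 0 ≤ (τ (star a * a)).re
  im : ∀ a, (τ (star a * a)).im = 0
  faith : ∀ a, τ (star a * a) = 0 → a = 0
  inv : ∀ k a, τ (α.tf k a) = τ a
  one : τ 1 = 1

end

end Vale.Agent.P092.H692
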