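import Vale.Agent.P092.H692.T1a

/-!
# P092 Team C, lemma T1, part b: the inner product of a state, finite dimension
-/

namespace Vale.Agent.P092.H692

open Module Finset ComplexConjugate

noncomputable section

set_option linter.unusedSectionVars false
set_option linter.style.haveILetI false

variable {K A : Type*} [Group K] [Ring A] [StarRing A] [Algebra ℂ A] [StarModule ℂ A]
variable {α : StAct K A} {τ : A →ₗ[ℂ] ℂ}

namespace Sta

theorem tau_star (h : Sta α τ) (a : A) : τ (star a) = conj (τ a) := by
  have h1 := h.im (1 + a)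
  have h2 := h.im (1 + Complex.I • a)
  have h3 := h.im a
  have e1 : τ (star (1 + a) * (1 + a)) = 1 + τ a + τ (star a) + τ (star a * a) := by
    rw [star_add, star_one, add_mul, mul_add, mul_add, one_mul, one_mul, mul_one, _root_.map_add,
      _root_.map_add, _root_.map_add, h.one]
    ring
  have e2 : τ (star (1 + Complex.I • a) * (1 + Complex.I • a)) =
      1 + Complex.I * τ a - Complex.I * τ (star a) + τ (star a * a) := by
    rw [star_add, star_one, star_smul, add_mul, mul_add, mul_add, one_mul, one_mul, mul_one,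
      smul_mul_smul_comm, _root_.map_add, _root_.map_add, _root_.map_add, h.one,
      _root_.map_smul, _root_.map_smul, _root_.map_smul]
    have : star Complex.I * Complex.I = 1 := by
      rw [Complex.star_def, Complex.conj_I]; simp
    rw [this]
    simp only [Complex.star_def, Complex.conj_I, smul_eq_mul]
    ring
  rw [e1] at h1
  rw [e2] at h2
  simp only [Complex.add_im, Complex.sub_im, Complex.mul_im, Complex.one_im, Complex.I_re,
    Complex.I_im, h3] at h1 h2
  apply Complex.ext
  · rw [Complex.conj_re]; linarith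
  · rw [Complex.conj_im]; linarith

/-- The inner product of the state. -/
@[reducible] def core (h : Sta α τ) : InnerProductSpace.Core ℂ A where
  inner a b := τ (star a * b)
  conj_inner_symm a b := by rw [← h.tau_star, star_mul, star_star]
  re_inner_nonneg a := h.re a
  add_left a b c := by rw [star_add, add_mul, _root_.map_add]
  smul_left a b c := by rw [star_smul, smul_mul_assoc, _root_.map_smul]; rfl
  definite a := h.faith a

theorem pos (h : Sta α τ) {a : A} (ha : a ≠ 0) : 0 < (τ (star a * a)).re := by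
  rcases (h.re a).lt_or_eq with h1 | h1
  · exact h1
  · exact absurd (h.faith a (Complex.ext h1.symm (h.im a))) ha

theorem ne' (h : Sta α τ) {a : A} (ha : a ≠ 0) : τ (star a * a) ≠ 0 :=
  fun h0 => ha (h.faith a h0)

theorem real (h : Sta α τ) (a : A) : τ (star a * a) = ((τ (star a * a)).re : ℂ) :=
  Complex.ext rfl (by rw [h.im]; rfl)

/-- Orthonormal bases of finite dimensional subspaces. -/
theorem exists_onb (h : Sta α τ) (V : Submodule ℂ A) [FiniteDimensional ℂ V] :
    ∃ x : Fin (finrank ℂ V) → A, (∀ i, x i ∈ V) ∧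
      (∀ i j, τ (star (x i) * x j) = if i = j then 1 else 0) ∧
      ∀ v ∈ V, v = ∑ i, τ (star (x i) * v) • x i := by
  letI := h.core
  letI : NormedAddCommGroup A := InnerProductSpace.Core.toNormedAddCommGroup (𝕜 := ℂ) (F := A)
  letI : InnerProductSpace ℂ A := InnerProductSpace.ofCore h.core.toCore
  let b := stdOrthonormalBasis ℂ V
  refine ⟨fun i => (b i : A), fun i => (b i).2, fun i j => ?_, fun v hv => ?_⟩
  · have := orthonormal_iff_ite.mp b.orthonormal i j
    exact this
  · have h1 := b.sum_repr' (⟨v, hv⟩ : V)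
    have h2 := congrArg (fun y : V => (y : A)) h1
    simp only [Submodule.coe_sum, Submodule.coe_smul] at h2
    exact h2.symm

theorem f_ne (h : Sta α τ) {f : A} {L : Subgroup K} (hf : α.Hm f L) : τ f ≠ 0 := by
  have := h.ne' hf.ne
  rwa [hf.sa, hf.id] at this

theorem f_real (h : Sta α τ) {f : A} {L : Subgroup K} (hf : α.Hm f L) :
    τ f = ((τ f).re : ℂ) := by
  have := h.real f
  rwa [hf.sa, hf.id] at this

theorem f_pos (h : Sta α τ) {f : A} {L : Subgroup K} (hf : α.Hm f L) : 0 < (τ f).re := by
  have := h.pos hf.ne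
  rwa [hf.sa, hf.id] at this

theorem tau_tot (h : Sta α τ) {L M : Subgroup K} [Fintype (L ⧸ M.subgroupOf L)] (a : A) :
    τ (α.tot L M a) = Fintype.card (L ⧸ M.subgroupOf L) * τ a := by
  unfold StAct.tot
  rw [map_sum, Finset.sum_congr rfl (fun q _ => h.inv _ a), Finset.sum_const, Finset.card_univ,
    nsmul_eq_mul]

theorem tot_eq (h : Sta α τ) {f : A} {L M : Subgroup K} [Fintype (L ⧸ M.subgroupOf L)]
    (hf : α.Hm f L) {a : A} (ha : a ∈ α.Fx f M) :
    α.tot L M a = (Fintype.card (L ⧸ M.subgroupOf L) * τ a / τ f) • f := by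
  obtain ⟨c, hc⟩ := hf.erg _ (StAct.tot_mem hf.fx ha)
  have h1 := h.tau_tot (L := L) (M := M) a
  rw [hc, _root_.map_smul, smul_eq_mul] at h1
  rw [hc, ← h1, mul_div_assoc, div_self (h.f_ne hf), mul_one]

/-- Bessel: the Hilbert-Schmidt bound of the involution. -/
theorem bessel (h : Sta α τ) {f : A} {L M : Subgroup K} [Fintype (L ⧸ M.subgroupOf L)]
    (hf : α.Hm f L) {m : ℕ} (x : Fin m → A) (hx : ∀ i, x i ∈ α.Fx f M)
    (ho : ∀ i j, τ (star (x i) * x j) = if i = j then 1 else 0) :
    ∑ i, (τ (x i * star (x i))).re ≤ Fintype.card (L ⧸ M.subgroupOf L) := by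
  set n : ℕ := Fintype.card (L ⧸ M.subgroupOf L) with hn
  classical
  set c : ℂ := n / τ f with hc
  have hf0 := h.f_ne hf
  have hn0 : (n : ℂ) ≠ 0 := by
    have : Nonempty (L ⧸ M.subgroupOf L) := ⟨((1 : L) : L ⧸ M.subgroupOf L)⟩
    exact_mod_cast Fintype.card_ne_zero
  have hc0 : c ≠ 0 := div_ne_zero hn0 hf0
  have hcc : conj c = c := by
    rw [hc, map_div₀, h.f_real hf, Complex.conj_ofReal, Complex.conj_natCast]
  -- the translates
  let X : (L ⧸ M.subgroupOf L) → Fin m → A := fun q i => α.tf (q.out : L) (x i)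
  have hX : ∀ i j, ∑ q, star (X q i) * X q j = if i = j then c • f else 0 := by
    intro i j
    have h1 : ∑ q, star (X q i) * X q j = α.tot L M (star (x i) * x j) := by
      unfold StAct.tot
      refine Finset.sum_congr rfl fun q _ => ?_
      rw [α.map_mul, α.map_star]
    rw [h1, h.tot_eq hf (StAct.Fx_mul (StAct.Fx_star hf.sa (hx i)) (hx j)), ho i j]
    split_ifs with hij
    · rw [mul_one]
    · simp
  have hXf : ∀ q i, X q i * f = X q i := by
    intro q i
    have h1 := (hx i).2.1
    calc X q i * f = α.tf (q.out : L) (x i) * α.tf (q.out : L) f := by rw [hf.fx _ q.out.2]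
      _ = X q i := by rw [← α.map_mul, h1]
  have hfX : ∀ q i, f * star (X q i) = star (X q i) := by
    intro q i
    have := congrArg star (hXf q i)
    rwa [star_mul, hf.sa] at this
  have hfX' : ∀ q i, f * X q i = X q i := by
    intro q i
    have h1 := (hx i).1
    calc f * X q i = α.tf (q.out : L) f * α.tf (q.out : L) (x i) := by rw [hf.fx _ q.out.2]
      _ = X q i := by rw [← α.map_mul, h1]
  let q₀ : L ⧸ M.subgroupOf L := ((1 : L) : L ⧸ M.subgroupOf L)
  let S : A := ∑ i, X q₀ i * star (X q₀ i)
  let Y : (L ⧸ M.subgroupOf L) → A := fun q => ∑ i, X q i * star (X q₀ i)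
  let Z : (L ⧸ M.subgroupOf L) → A := fun q => (if q = q₀ then f else 0) - c⁻¹ • Y q
  have hYst : ∀ q, star (Y q) = ∑ i, X q₀ i * star (X q i) := by
    intro q
    rw [star_sum]
    refine Finset.sum_congr rfl fun i _ => ?_
    rw [star_mul, star_star]
  have hYY : ∑ q, star (Y q) * Y q = c • S := by
    calc ∑ q, star (Y q) * Y q
        = ∑ q, ∑ i, ∑ j, X q₀ i * (star (X q i) * X q j) * star (X q₀ j) := by
          refine Finset.sum_congr rfl fun q _ => ?_
          rw [hYst, Finset.sum_mul_sum]
          refine Finset.sum_congr rfl fun i _ => Finset.sum_congr rfl fun j _ => ?_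
          simp only [mul_assoc]
      _ = ∑ i, ∑ j, X q₀ i * (∑ q, star (X q i) * X q j) * star (X q₀ j) := by
          rw [Finset.sum_comm]
          refine Finset.sum_congr rfl fun i _ => ?_
          rw [Finset.sum_comm]
          refine Finset.sum_congr rfl fun j _ => ?_
          rw [Finset.mul_sum, Finset.sum_mul]
      _ = ∑ i, c • (X q₀ i * star (X q₀ i)) := by
          refine Finset.sum_congr rfl fun i _ => ?_
          rw [Finset.sum_eq_single i]
          · rw [hX, if_pos rfl, mul_smul_comm, smul_mul_assoc, hXf]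
          · intro j _ hj
            rw [hX, if_neg (Ne.symm hj), mul_zero, zero_mul]
          · simp
      _ = c • S := by rw [Finset.smul_sum]
  have hY0 : Y q₀ = S := rfl
  have hfS : f * S = S := by
    simp only [S, Finset.mul_sum]
    refine Finset.sum_congr rfl fun i _ => ?_
    rw [← mul_assoc, hfX']
  have hSs : star S = S := by
    have := hYst q₀
    rwa [hY0] at this
  have hZZ : ∑ q, star (Z q) * Z q = f - c⁻¹ • S := by
    have h1 : ∀ q, star (Z q) * Z q = (if q = q₀ then f - c⁻¹ • S - c⁻¹ • S else 0) +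
        (c⁻¹ * c⁻¹) • (star (Y q) * Y q) := by
      intro q
      have h2 : star (c⁻¹) = c⁻¹ := by
        rw [Complex.star_def, map_inv₀, hcc]
      by_cases hq : q = q₀
      · subst hq
        simp only [Z, if_true, hY0]
        rw [star_sub, star_smul, hf.sa, h2, hSs, sub_mul, mul_sub, mul_sub, hf.id,
          mul_smul_comm, hfS, smul_mul_assoc, smul_mul_smul_comm]
        have h3 : S * f = S := by
          have := congrArg star hfS
          rwa [star_mul, hSs, hf.sa] at this
        rw [h3]
        abel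
      · simp only [Z, if_neg hq, zero_sub, zero_add]
        rw [star_neg, star_smul, h2, neg_mul_neg, smul_mul_smul_comm]
    rw [Finset.sum_congr rfl fun q _ => h1 q, Finset.sum_add_distrib, ← Finset.smul_sum, hYY,
      Finset.sum_ite_eq' Finset.univ q₀, if_pos (Finset.mem_univ _), smul_smul,
      mul_assoc, inv_mul_cancel₀ hc0, mul_one]
    abel
  have h4 : 0 ≤ (τ (f - c⁻¹ • S)).re := by
    rw [← hZZ, map_sum, Complex.re_sum]
    exact Finset.sum_nonneg fun q _ => h.re _
  have h5 : τ S = ∑ i, τ (x i * star (x i)) := by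
    simp only [S]
    rw [map_sum]
    refine Finset.sum_congr rfl fun i _ => ?_
    rw [← h.inv (q₀.out : L) (x i * star (x i)), α.map_mul, α.map_star]
  have h6 : (τ S).re = ∑ i, (τ (x i * star (x i))).re := by rw [h5, Complex.re_sum]
  rw [map_sub, _root_.map_smul, smul_eq_mul, hc, inv_div, h.f_real hf] at h4
  have h7 : (((τ f).re : ℂ) / (n : ℂ) * τ S).re = (τ f).re / n * (τ S).re := by
    have : ((τ f).re : ℂ) / (n : ℂ) = (((τ f).re / n : ℝ) : ℂ) := by push_cast; rfl
    rw [this, Complex.re_ofReal_mul]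
  rw [Complex.sub_re, Complex.ofReal_re, h7, h6] at h4
  have hp := h.f_pos hf
  have hn1 : (0 : ℝ) < n := by
    have : Nonempty (L ⧸ M.subgroupOf L) := ⟨((1 : L) : L ⧸ M.subgroupOf L)⟩
    exact_mod_cast Fintype.card_pos
  set T := ∑ i, (τ (x i * star (x i))).re
  have h8 : (τ f).re / n * T ≤ (τ f).re := by linarith
  rw [div_mul_eq_mul_div, div_le_iff₀ hn1] at h8
  have h9 : (τ f).re * T ≤ (τ f).re * n := h8
  exact le_of_mul_le_mul_left h9 hp

/-- The dimension of a star closed subspace is at most the index. -/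
theorem dim_le (h : Sta α τ) {f : A} {L M : Subgroup K} [Fintype (L ⧸ M.subgroupOf L)]
    (hf : α.Hm f L) (V : Submodule ℂ A) [FiniteDimensional ℂ V] (hV : V ≤ α.Fx f M)
    (hs : ∀ v ∈ V, star v ∈ V) : finrank ℂ V ≤ Fintype.card (L ⧸ M.subgroupOf L) := by
  obtain ⟨x, hx, ho, hr⟩ := h.exists_onb V
  have hb := h.bessel hf x (fun i => hV (hx i)) ho
  -- the matrix of the involution
  let a : Fin (finrank ℂ V) → Fin (finrank ℂ V) → ℂ := fun i j => τ (star (x i) * star (x j))
  have h1 : ∀ j, star (x j) = ∑ i, a i j • x i := fun j => hr _ (hs _ (hx j))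
  have h2 : ∀ j, τ (x j * star (x j)) = ∑ i, a i j * conj (a i j) := by
    intro j
    have h3 : τ (x j * star (x j)) = τ (x j * ∑ i, a i j • x i) := by rw [← h1 j]
    rw [h3, Finset.mul_sum, map_sum]
    refine Finset.sum_congr rfl fun i _ => ?_
    rw [mul_smul_comm, _root_.map_smul, smul_eq_mul]
    congr 1
    rw [← h.tau_star]
    simp only [star_mul, star_star]
  have h4 : ∀ j, (τ (x j * star (x j))).re = ∑ i, ‖a i j‖ ^ 2 := by
    intro j
    rw [h2, Complex.re_sum]
    refine Finset.sum_congr rfl fun i _ => ?_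
    rw [Complex.mul_conj, Complex.ofReal_re, Complex.normSq_eq_norm_sq]
  have h5 : ∀ k j, ∑ i, a k i * conj (a i j) = if k = j then 1 else 0 := by
    intro k j
    have h6 : x j = ∑ i, conj (a i j) • star (x i) := by
      have := congrArg star (h1 j)
      rw [star_star, star_sum] at this
      rw [this]
      exact Finset.sum_congr rfl fun i _ => by rw [star_smul]; rfl
    rw [← ho k j]
    conv_rhs => rw [h6]
    rw [Finset.mul_sum, map_sum]
    refine Finset.sum_congr rfl fun i _ => ?_
    rw [mul_smul_comm, _root_.map_smul, smul_eq_mul, mul_comm]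
  have h7 : (finrank ℂ V : ℝ) ≤ ∑ j, ∑ i, ‖a i j‖ ^ 2 := by
    have h8 : ((finrank ℂ V : ℝ) : ℂ) = ∑ j, ∑ i, a j i * conj (a i j) := by
      rw [Finset.sum_congr rfl fun j _ => h5 j j]
      simp
    have h9 : (finrank ℂ V : ℝ) = ∑ j, ∑ i, (a j i * conj (a i j)).re := by
      have := congrArg Complex.re h8
      rw [Complex.ofReal_re] at this
      rw [this, Complex.re_sum]
      exact Finset.sum_congr rfl fun j _ => by rw [Complex.re_sum]
    have h10 : ∀ i j, (a j i * conj (a i j)).re ≤ (‖a j i‖ ^ 2 + ‖a i j‖ ^ 2) / 2 := by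
      intro i j
      have h11 := Complex.re_le_norm (a j i * conj (a i j))
      rw [norm_mul, Complex.norm_conj] at h11
      nlinarith [sq_nonneg (‖a j i‖ - ‖a i j‖)]
    have h12 : ∑ j, ∑ i, ‖a j i‖ ^ 2 = ∑ j, ∑ i, ‖a i j‖ ^ 2 := Finset.sum_comm
    calc (finrank ℂ V : ℝ) = ∑ j, ∑ i, (a j i * conj (a i j)).re := h9
      _ ≤ ∑ j, ∑ i, (‖a j i‖ ^ 2 + ‖a i j‖ ^ 2) / 2 :=
        Finset.sum_le_sum fun j _ => Finset.sum_le_sum fun i _ => h10 i j
      _ = (∑ j, ∑ i, ‖a j i‖ ^ 2 + ∑ j, ∑ i, ‖a i j‖ ^ 2) / 2 := by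
        rw [← Finset.sum_add_distrib, Finset.sum_div]
        refine Finset.sum_congr rfl fun j _ => ?_
        rw [← Finset.sum_add_distrib, Finset.sum_div]
      _ = ∑ j, ∑ i, ‖a i j‖ ^ 2 := by rw [h12]; ring
  rw [Finset.sum_congr rfl fun j _ => h4 j] at hb
  exact_mod_cast h7.trans hb

/-- The fixed point algebra of a subgroup of finite index is finite dimensional. -/
theorem finite_Fx (h : Sta α τ) {f : A} {L M : Subgroup K} [Fintype (L ⧸ M.subgroupOf L)]
    (hf : α.Hm f L) : Module.Finite ℂ (α.Fx f M) := by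
  classical
  have hr : Module.rank ℂ (α.Fx f M) ≤ Fintype.card (L ⧸ M.subgroupOf L) := by
    refine rank_le fun s hs => ?_
    let s' : Finset A := Finset.image (fun v : α.Fx f M => (v : A)) s
    let t : Set A := (s' : Set A) ∪ star '' (s' : Set A)
    have ht : t.Finite := s'.finite_toSet.union (s'.finite_toSet.image _)
    have : FiniteDimensional ℂ (Submodule.span ℂ t) := FiniteDimensional.span_of_finite ℂ ht
    have hs'V : ∀ v ∈ (s' : Set A), v ∈ α.Fx f M := by
      intro v hv
      obtain ⟨w, _, rfl⟩ := Finset.mem_image.mp (Finset.mem_coe.mp hv)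
      exact w.2
    have hV : Submodule.span ℂ t ≤ α.Fx f M := by
      rw [Submodule.span_le]
      rintro v (hv | ⟨w, hw, rfl⟩)
      · exact hs'V v hv
      · exact StAct.Fx_star hf.sa (hs'V w hw)
    have hst : ∀ v ∈ Submodule.span ℂ t, star v ∈ Submodule.span ℂ t := by
      intro v hv
      induction hv using Submodule.span_induction with
      | mem x hx =>
        rcases hx with hx | ⟨w, hw, rfl⟩
        · exact Submodule.subset_span (Or.inr ⟨x, hx, rfl⟩)
        · rw [star_star]; exact Submodule.subset_span (Or.inl hw)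
      | zero => rw [star_zero]; exact Submodule.zero_mem _
      | add x y _ _ h1 h2 => rw [star_add]; exact Submodule.add_mem _ h1 h2
      | smul c x _ h1 => rw [star_smul]; exact Submodule.smul_mem _ _ h1
    have h1 := h.dim_le (L := L) (M := M) hf (Submodule.span ℂ t) hV hst
    refine le_trans ?_ h1
    have h2 : LinearIndependent ℂ (fun i : s => ((i : α.Fx f M) : A)) := by
      have := hs.map' (α.Fx f M).subtype (Submodule.ker_subtype _)
      exact this
    have h2' : ∀ i : s, ((i : α.Fx f M) : A) ∈ t := fun i =>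
      Or.inl (Finset.mem_coe.mpr (Finset.mem_image_of_mem (fun v : α.Fx f M => (v : A)) i.2))
    let g : s → Submodule.span ℂ t := fun i => ⟨((i : α.Fx f M) : A), Submodule.subset_span (h2' i)⟩
    have h3 : LinearIndependent ℂ g := by
      refine LinearIndependent.of_comp (Submodule.span ℂ t).subtype ?_
      exact h2
    have h4 := h3.fintype_card_le_finrank
    rwa [Fintype.card_coe] at h4
  exact Module.rank_lt_aleph0_iff.mp (hr.trans_lt (Cardinal.natCast_lt_aleph0))

end Sta

end

end Vale.Agent.P092.H692
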