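import Vale.Agent.P092.H692.T1b

/-!
# P092 Team C, lemma T1, part c: traces of multiplications, the state is a trace
-/

namespace Vale.Agent.P092.H692

open Module Finset ComplexConjugate

noncomputable section

set_option linter.style.haveILetI false

set_option linter.unusedSectionVars false

variable {K A : Type*} [Group K] [Ring A] [StarRing A] [Algebra ℂ A] [StarModule ℂ A]
variable {α : StAct K A} {τ : A →ₗ[ℂ] ℂ}

theorem trace_idem {V : Type*} [AddCommGroup V] [Module ℂ V] [FiniteDimensional ℂ V]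
    (T : V →ₗ[ℂ] V) (h : ∀ v, T (T v) = T v) :
    LinearMap.trace ℂ V T = (finrank ℂ (LinearMap.range T) : ℂ) := by
  have h1 : LinearMap.IsProj (LinearMap.range T) T := by
    refine ⟨fun v => ⟨v, rfl⟩, ?_⟩
    rintro _ ⟨v, rfl⟩
    exact h v
  exact h1.trace

namespace Sta

theorem Hm_mem {f : A} {L M : Subgroup K} (hf : α.Hm f L) (hML : M ≤ L) : f ∈ α.Fx f M :=
  ⟨hf.id, hf.id, fun k hk => hf.fx k (hML hk)⟩

/-- The trace of an equivariant representation of the fixed point algebra. -/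
theorem trace_gen (h : Sta α τ) {f : A} {L M : Subgroup K} [Fintype (L ⧸ M.subgroupOf L)]
    (hf : α.Hm f L) (hM : M.Normal) (hML : M ≤ L)
    {V : Type*} [AddCommGroup V] [Module ℂ V] [FiniteDimensional ℂ V]
    (T : α.Fx f M →ₗ[ℂ] Module.End ℂ V) (hT : T ⟨f, Hm_mem hf hML⟩ = 1)
    (ρ : L → (V ≃ₗ[ℂ] V))
    (hρ : ∀ (k : L) (a : α.Fx f M), T ⟨α.tf k a, StAct.Fx_tf hM (hf.fx k k.2) a.2⟩ =
      (ρ k : V →ₗ[ℂ] V) ∘ₗ T a ∘ₗ ((ρ k).symm : V →ₗ[ℂ] V)) (a : α.Fx f M) :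
    LinearMap.trace ℂ V (T a) = τ a / τ f * finrank ℂ V := by
  set n : ℕ := Fintype.card (L ⧸ M.subgroupOf L) with hn
  have hn0 : (n : ℂ) ≠ 0 := by
    have : Nonempty (L ⧸ M.subgroupOf L) := ⟨((1 : L) : L ⧸ M.subgroupOf L)⟩
    exact_mod_cast Fintype.card_ne_zero
  have h1 : ∀ k : L, LinearMap.trace ℂ V (T ⟨α.tf k a, StAct.Fx_tf hM (hf.fx k k.2) a.2⟩) =
      LinearMap.trace ℂ V (T a) := by
    intro k
    rw [hρ]
    exact LinearMap.trace_conj' (T a) (ρ k)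
  have h2 : (⟨α.tot L M a, StAct.Fx_mono hML (StAct.tot_mem hf.fx a.2)⟩ : α.Fx f M) =
      ∑ q : L ⧸ M.subgroupOf L,
        ⟨α.tf (q.out : L) a, StAct.Fx_tf hM (hf.fx _ q.out.2) a.2⟩ := by
    apply Subtype.ext
    rw [Submodule.coe_sum]
    rfl
  have h3 : LinearMap.trace ℂ V (T ⟨α.tot L M a,
      StAct.Fx_mono hML (StAct.tot_mem hf.fx a.2)⟩) = n * LinearMap.trace ℂ V (T a) := by
    rw [h2, map_sum, map_sum, Finset.sum_congr rfl (fun q _ => h1 q.out), Finset.sum_const,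
      Finset.card_univ, nsmul_eq_mul]
  have h4 : (⟨α.tot L M a, StAct.Fx_mono hML (StAct.tot_mem hf.fx a.2)⟩ : α.Fx f M) =
      (n * τ a / τ f) • ⟨f, Hm_mem hf hML⟩ := by
    apply Subtype.ext
    exact h.tot_eq hf a.2
  rw [h4, _root_.map_smul, _root_.map_smul, hT, LinearMap.trace_one, smul_eq_mul] at h3
  have h5 : (n : ℂ) * (τ a / τ f * finrank ℂ V) = n * LinearMap.trace ℂ V (T a) := by
    rw [← h3]; ring
  exact (mul_left_cancel₀ hn0 h5).symm

/-- The restriction of the action to an invariant subspace. -/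
def rho (V : Submodule ℂ A) (L : Subgroup K) (hVk : ∀ k ∈ L, ∀ v ∈ V, α.tf k v ∈ V) (k : L) :
    V ≃ₗ[ℂ] V where
  toFun v := ⟨α.tf k v, hVk k k.2 v v.2⟩
  invFun v := ⟨α.tf (k : K)⁻¹ v, hVk _ (L.inv_mem k.2) v v.2⟩
  map_add' u v := Subtype.ext (by simp)
  map_smul' c v := Subtype.ext (by simp)
  left_inv v := Subtype.ext (by simp [α.inv_tf])
  right_inv v := Subtype.ext (by simp [α.tf_inv])

/-- Left multiplication by the fixed point algebra. -/
def lm (V : Submodule ℂ A) {f : A} {M : Subgroup K}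
    (hl : ∀ a ∈ α.Fx f M, ∀ v ∈ V, a * v ∈ V) : α.Fx f M →ₗ[ℂ] Module.End ℂ V where
  toFun a :=
    { toFun := fun v => ⟨a * v, hl a a.2 v v.2⟩
      map_add' := fun _ _ => Subtype.ext (mul_add _ _ _)
      map_smul' := fun _ _ => Subtype.ext (mul_smul_comm _ _ _) }
  map_add' _ _ := LinearMap.ext fun _ => Subtype.ext (add_mul _ _ _)
  map_smul' _ _ := LinearMap.ext fun _ => Subtype.ext (smul_mul_assoc _ _ _)

theorem lm_apply (V : Submodule ℂ A) {f : A} {M : Subgroup K}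
    (hl : ∀ a ∈ α.Fx f M, ∀ v ∈ V, a * v ∈ V) (a : α.Fx f M) (v : V) :
    ((lm V hl a v : V) : A) = a * v := rfl

/-- Right multiplication by the fixed point algebra. -/
def rm (V : Submodule ℂ A) {f : A} {M : Subgroup K}
    (hl : ∀ a ∈ α.Fx f M, ∀ v ∈ V, v * a ∈ V) : α.Fx f M →ₗ[ℂ] Module.End ℂ V where
  toFun a :=
    { toFun := fun v => ⟨v * a, hl a a.2 v v.2⟩
      map_add' := fun _ _ => Subtype.ext (add_mul _ _ _)
      map_smul' := fun _ _ => Subtype.ext (smul_mul_assoc _ _ _) }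
  map_add' _ _ := LinearMap.ext fun _ => Subtype.ext (mul_add _ _ _)
  map_smul' _ _ := LinearMap.ext fun _ => Subtype.ext (mul_smul_comm _ _ _)

theorem rm_apply (V : Submodule ℂ A) {f : A} {M : Subgroup K}
    (hl : ∀ a ∈ α.Fx f M, ∀ v ∈ V, v * a ∈ V) (a : α.Fx f M) (v : V) :
    ((rm V hl a v : V) : A) = v * a := rfl

theorem trace_left (h : Sta α τ) {f : A} {L M : Subgroup K} [Fintype (L ⧸ M.subgroupOf L)]
    (hf : α.Hm f L) (hM : M.Normal) (hML : M ≤ L) (V : Submodule ℂ A) [FiniteDimensional ℂ V]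
    (hl : ∀ a ∈ α.Fx f M, ∀ v ∈ V, a * v ∈ V) (hVf : ∀ v ∈ V, f * v = v)
    (hVk : ∀ k ∈ L, ∀ v ∈ V, α.tf k v ∈ V) (a : α.Fx f M) :
    LinearMap.trace ℂ V (lm V hl a) = τ a / τ f * finrank ℂ V := by
  refine h.trace_gen hf hM hML (lm V hl) ?_ (rho V L hVk) ?_ a
  · refine LinearMap.ext fun v => Subtype.ext ?_
    rw [lm_apply]; exact hVf v v.2
  · intro k a
    refine LinearMap.ext fun v => Subtype.ext ?_
    rw [lm_apply]
    change α.tf k a * (v : A) = α.tf k ((a : A) * α.tf (k : K)⁻¹ v)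
    rw [α.map_mul, α.tf_inv]

theorem trace_right (h : Sta α τ) {f : A} {L M : Subgroup K} [Fintype (L ⧸ M.subgroupOf L)]
    (hf : α.Hm f L) (hM : M.Normal) (hML : M ≤ L) (V : Submodule ℂ A) [FiniteDimensional ℂ V]
    (hl : ∀ a ∈ α.Fx f M, ∀ v ∈ V, v * a ∈ V) (hVf : ∀ v ∈ V, v * f = v)
    (hVk : ∀ k ∈ L, ∀ v ∈ V, α.tf k v ∈ V) (a : α.Fx f M) :
    LinearMap.trace ℂ V (rm V hl a) = τ a / τ f * finrank ℂ V := by
  refine h.trace_gen hf hM hML (rm V hl) ?_ (rho V L hVk) ?_ a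
  · refine LinearMap.ext fun v => Subtype.ext ?_
    rw [rm_apply]; exact hVf v v.2
  · intro k a
    refine LinearMap.ext fun v => Subtype.ext ?_
    rw [rm_apply]
    change (v : A) * α.tf k a = α.tf k (α.tf (k : K)⁻¹ v * (a : A))
    rw [α.map_mul, α.tf_inv]

theorem finrank_range_sub {V : Submodule ℂ A} (T : V →ₗ[ℂ] V) :
    finrank ℂ (LinearMap.range T) = finrank ℂ ((LinearMap.range T).map V.subtype) :=
  (LinearEquiv.finrank_eq (Submodule.equivMapOfInjective V.subtype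
    (Submodule.injective_subtype V) (LinearMap.range T)))

/-- The dimension of `e V`. -/
theorem dim_left (h : Sta α τ) {f : A} {L M : Subgroup K} [Fintype (L ⧸ M.subgroupOf L)]
    (hf : α.Hm f L) (hM : M.Normal) (hML : M ≤ L) (V : Submodule ℂ A) [FiniteDimensional ℂ V]
    (hl : ∀ a ∈ α.Fx f M, ∀ v ∈ V, a * v ∈ V) (hVf : ∀ v ∈ V, f * v = v)
    (hVk : ∀ k ∈ L, ∀ v ∈ V, α.tf k v ∈ V) {e : A} (he : e ∈ α.Fx f M) (hee : e * e = e) :
    (finrank ℂ (V.map (LinearMap.mulLeft ℂ e)) : ℂ) = τ e / τ f * finrank ℂ V := by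
  have h0 := h.trace_left hf hM hML V hl hVf hVk ⟨e, he⟩
  set T : V →ₗ[ℂ] V := lm V hl ⟨e, he⟩ with hT
  have h1 : ∀ v, T (T v) = T v := by
    intro v
    apply Subtype.ext
    change e * (e * (v : A)) = e * v
    rw [← mul_assoc, hee]
  have h3 : LinearMap.trace ℂ V T = (finrank ℂ (LinearMap.range T) : ℂ) := trace_idem T h1
  rw [← h0, h3, finrank_range_sub]
  have h2 : (LinearMap.range T).map V.subtype = V.map (LinearMap.mulLeft ℂ e) := by
    ext x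
    constructor
    · rintro ⟨_, ⟨v, rfl⟩, rfl⟩
      exact ⟨v, v.2, rfl⟩
    · rintro ⟨v, hv, rfl⟩
      exact ⟨_, ⟨⟨v, hv⟩, rfl⟩, rfl⟩
  rw [h2]

/-- The dimension of `V e`. -/
theorem dim_right (h : Sta α τ) {f : A} {L M : Subgroup K} [Fintype (L ⧸ M.subgroupOf L)]
    (hf : α.Hm f L) (hM : M.Normal) (hML : M ≤ L) (V : Submodule ℂ A) [FiniteDimensional ℂ V]
    (hl : ∀ a ∈ α.Fx f M, ∀ v ∈ V, v * a ∈ V) (hVf : ∀ v ∈ V, v * f = v)
    (hVk : ∀ k ∈ L, ∀ v ∈ V, α.tf k v ∈ V) {e : A} (he : e ∈ α.Fx f M) (hee : e * e = e) :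
    (finrank ℂ (V.map (LinearMap.mulRight ℂ e)) : ℂ) = τ e / τ f * finrank ℂ V := by
  have h0 := h.trace_right hf hM hML V hl hVf hVk ⟨e, he⟩
  set T : V →ₗ[ℂ] V := rm V hl ⟨e, he⟩ with hT
  have h1 : ∀ v, T (T v) = T v := by
    intro v
    apply Subtype.ext
    change (v : A) * e * e = v * e
    rw [mul_assoc, hee]
  have h3 : LinearMap.trace ℂ V T = (finrank ℂ (LinearMap.range T) : ℂ) := trace_idem T h1
  rw [← h0, h3, finrank_range_sub]
  have h2 : (LinearMap.range T).map V.subtype = V.map (LinearMap.mulRight ℂ e) := by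
    ext x
    constructor
    · rintro ⟨_, ⟨v, rfl⟩, rfl⟩
      exact ⟨v, v.2, rfl⟩
    · rintro ⟨v, hv, rfl⟩
      exact ⟨_, ⟨⟨v, hv⟩, rfl⟩, rfl⟩
  rw [h2]

/-- **The invariant state is a trace** on the fixed point algebra. -/
theorem trace_comm (h : Sta α τ) {f : A} {L M : Subgroup K} [Fintype (L ⧸ M.subgroupOf L)]
    (hf : α.Hm f L) (hM : M.Normal) (hML : M ≤ L) {a b : A} (ha : a ∈ α.Fx f M)
    (hb : b ∈ α.Fx f M) : τ (a * b) = τ (b * a) := by
  haveI := h.finite_Fx (M := M) hf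
  set V := α.Fx f M
  have hl : ∀ a ∈ α.Fx f M, ∀ v ∈ V, a * v ∈ V := fun a ha v hv => StAct.Fx_mul ha hv
  have hVf : ∀ v ∈ V, f * v = v := fun v hv => hv.1
  have hVk : ∀ k ∈ L, ∀ v ∈ V, α.tf k v ∈ V := fun k hk v hv => StAct.Fx_tf hM (hf.fx k hk) hv
  have h1 := h.trace_left hf hM hML V hl hVf hVk ⟨a * b, StAct.Fx_mul ha hb⟩
  have h2 := h.trace_left hf hM hML V hl hVf hVk ⟨b * a, StAct.Fx_mul hb ha⟩
  have h3 : lm V hl ⟨a * b, StAct.Fx_mul ha hb⟩ = lm V hl ⟨a, ha⟩ * lm V hl ⟨b, hb⟩ :=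
    LinearMap.ext fun v => Subtype.ext (mul_assoc _ _ _)
  have h4 : lm V hl ⟨b * a, StAct.Fx_mul hb ha⟩ = lm V hl ⟨b, hb⟩ * lm V hl ⟨a, ha⟩ :=
    LinearMap.ext fun v => Subtype.ext (mul_assoc _ _ _)
  rw [h3, LinearMap.trace_mul_comm, ← h4, h2] at h1
  have hd : (finrank ℂ V : ℂ) ≠ 0 := by
    have : Nontrivial V := ⟨⟨f, Hm_mem hf hML⟩, 0, fun he => hf.ne (congrArg Subtype.val he)⟩
    exact_mod_cast (Module.finrank_pos (R := ℂ) (M := V)).ne'
  have h5 := mul_right_cancel₀ hd h1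
  have h6 := h.f_ne hf
  field_simp at h5
  exact h5.symm

end Sta

end

end Vale.Agent.P092.H692
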