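import Vale.Agent.P092.H692.T1c

/-!
# P092 Team C, lemma T1, part d: minimal projections
-/

namespace Vale.Agent.P092.H692

open Module Finset ComplexConjugate

noncomputable section

set_option linter.unusedSectionVars false
set_option linter.style.haveILetI false

variable {K A : Type*} [Group K] [Ring A] [StarRing A] [Algebra ℂ A] [StarModule ℂ A]
variable {α : StAct K A} {τ : A →ₗ[ℂ] ℂ}

/-- Left multiplication as an endomorphism of an invariant subspace. -/
def lr (W : Submodule ℂ A) (a : A) (h : ∀ w ∈ W, a * w ∈ W) : W →ₗ[ℂ] W where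
  toFun v := ⟨a * v, h v v.2⟩
  map_add' _ _ := Subtype.ext (mul_add _ _ _)
  map_smul' _ _ := Subtype.ext (mul_smul_comm _ _ _)

theorem lr_inj (W : Submodule ℂ A) [FiniteDimensional ℂ W] (a : A) (h : ∀ w ∈ W, a * w ∈ W)
    (hs : ∀ w ∈ W, ∃ v ∈ W, a * v = w) {v : A} (hv : v ∈ W) (h0 : a * v = 0) : v = 0 := by
  have h1 : Function.Surjective (lr W a h) := by
    rintro ⟨w, hw⟩
    obtain ⟨v, hv, h2⟩ := hs w hw
    exact ⟨⟨v, hv⟩, Subtype.ext h2⟩
  have h2 : Function.Injective (lr W a h) := LinearMap.injective_iff_surjective.mpr h1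
  have h3 : lr W a h ⟨v, hv⟩ = lr W a h 0 := by
    rw [map_zero]; exact Subtype.ext h0
  exact congrArg Subtype.val (h2 h3)

theorem lr_eigen (W : Submodule ℂ A) [FiniteDimensional ℂ W] (a : A) (h : ∀ w ∈ W, a * w ∈ W)
    {w : A} (hw : w ∈ W) (hw0 : w ≠ 0) : ∃ μ : ℂ, ∃ v ∈ W, v ≠ 0 ∧ a * v = μ • v := by
  haveI : Nontrivial W := ⟨⟨w, hw⟩, 0, fun he => hw0 (congrArg Subtype.val he)⟩
  obtain ⟨μ, hμ⟩ := Module.End.exists_eigenvalue (lr W a h)
  obtain ⟨v, hv⟩ := hμ.exists_hasEigenvector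
  refine ⟨μ, v, v.2, fun he => hv.2 (Subtype.ext he), ?_⟩
  exact congrArg Subtype.val hv.apply_eq_smul

namespace Sta

theorem mul_star_ne (h : Sta α τ) {x : A} (hx : x ≠ 0) : x * star x ≠ 0 := by
  intro h0
  have h1 := h.faith (star x) (by rw [star_star, h0, map_zero])
  exact hx (star_eq_zero.mp h1)

theorem star_mul_ne (h : Sta α τ) {x : A} (hx : x ≠ 0) : star x * x ≠ 0 := by
  intro h0
  exact hx (h.faith x (by rw [h0, map_zero]))

/-- **Minimal projections exist.** -/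
theorem exists_min (h : Sta α τ) {f : A} {L M : Subgroup K} [Fintype (L ⧸ M.subgroupOf L)]
    (hf : α.Hm f L) (hML : M ≤ L) : ∃ g, α.Hm g M ∧ f * g = g ∧ g * f = g := by
  haveI := h.finite_Fx (M := M) hf
  set B := α.Fx f M with hB
  have hfB : f ∈ B := Hm_mem hf hML
  have hmul : ∀ {a b}, a ∈ B → b ∈ B → a * b ∈ B := fun ha hb => StAct.Fx_mul ha hb
  have hst : ∀ {a}, a ∈ B → star a ∈ B := fun ha => StAct.Fx_star hf.sa ha
  let I : A → Submodule ℂ A := fun x => B.map (LinearMap.mulLeft ℂ x)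
  have memI : ∀ {x y}, y ∈ I x ↔ ∃ b ∈ B, x * b = y := Iff.rfl
  have hfin : ∀ x, FiniteDimensional ℂ (I x) := fun x => inferInstance
  have hex : ∃ n : ℕ, ∃ x ∈ B, x ≠ 0 ∧ finrank ℂ (I x) = n := ⟨_, f, hfB, hf.ne, rfl⟩
  classical
  obtain ⟨x, hx, hx0, hxn⟩ := Nat.find_spec hex
  set n := Nat.find hex
  have hmin : ∀ y ∈ B, y ≠ 0 → n ≤ finrank ℂ (I y) := fun y hy hy0 =>
    Nat.find_min' hex ⟨y, hy, hy0, rfl⟩
  -- the self-adjoint element
  set t := x * star x with ht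
  have htB : t ∈ B := hmul hx (hst hx)
  have ht0 : t ≠ 0 := h.mul_star_ne hx0
  have hts : star t = t := by rw [ht, star_mul, star_star]
  have hIt : I t = I x := by
    refine Submodule.eq_of_le_of_finrank_le ?_ (by rw [hxn]; exact hmin t htB ht0)
    rintro y hy
    obtain ⟨b, hb, rfl⟩ := memI.mp hy
    exact memI.mpr ⟨star x * b, hmul (hst hx) hb, by rw [ht, mul_assoc]⟩
  have htn : finrank ℂ (I t) = n := by rw [hIt, hxn]
  clear_value t
  have htt0 : t * t ≠ 0 := by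
    have := h.star_mul_ne ht0
    rwa [hts] at this
  have hle : ∀ c ∈ B, c ≠ 0 → I c ≤ I t → I c = I t := fun c hc hc0 hcl =>
    Submodule.eq_of_le_of_finrank_le hcl (by rw [htn]; exact hmin c hc hc0)
  have hItt : I (t * t) = I t := by
    refine hle _ (hmul htB htB) htt0 ?_
    intro y hy
    obtain ⟨b, hb, rfl⟩ := memI.mp hy
    exact memI.mpr ⟨t * b, hmul htB hb, by rw [mul_assoc]⟩
  have htI : t ∈ I t := memI.mpr ⟨f, hfB, htB.2.1⟩
  obtain ⟨b, hb, hbt⟩ := memI.mp (hItt ▸ htI : t ∈ I (t * t))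
  set g := t * b with hg
  have htg : t * g = t := by rw [hg, ← mul_assoc, hbt]
  have hgI : g ∈ I t := memI.mpr ⟨b, hb, rfl⟩
  have hgB : g ∈ B := hmul htB hb
  have hIB : ∀ {y}, y ∈ I t → y ∈ B := fun hy => by
    obtain ⟨c, hc, rfl⟩ := memI.mp hy; exact hmul htB hc
  have hinj : ∀ {y}, y ∈ I t → t * y = 0 → y = 0 := by
    intro y hy h0
    refine lr_inj (I t) t (fun w hw => memI.mpr ⟨w, hIB hw, rfl⟩) ?_ hy h0
    intro w hw
    obtain ⟨c, hc, rfl⟩ := memI.mp (hItt ▸ hw : w ∈ I (t * t))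
    exact ⟨t * c, memI.mpr ⟨c, hc, rfl⟩, by rw [mul_assoc]⟩
  have hgg : g * g = g := by
    have h1 : g * g - g ∈ I t := Submodule.sub_mem _
      (memI.mpr ⟨b * g, hmul hb hgB, by rw [hg]; simp only [mul_assoc]⟩) hgI
    have h2 := hinj h1 (by rw [mul_sub, ← mul_assoc, htg, htg, sub_self])
    exact sub_eq_zero.mp h2
  have hsgt : star g * t = t := by
    have := congrArg star htg
    rwa [star_mul, hts] at this
  have hsgg : star g * g = g := by
    have h1 : star g * (t * b) = t * b := by rw [← mul_assoc, hsgt]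
    exact h1
  have hgs : star g = g := by
    have := congrArg star hsgg
    rw [star_mul, star_star, hsgg] at this
    exact this.symm
  have hg0 : g ≠ 0 := by
    intro h0; rw [h0, mul_zero] at htg; exact ht0 htg.symm
  have hgy : ∀ {y}, y ∈ I t → g * y = y := by
    intro y hy
    have h1 : g * y - y ∈ I t := Submodule.sub_mem _
      (memI.mpr ⟨b * y, hmul hb (hIB hy), by rw [hg]; simp only [mul_assoc]⟩) hy
    exact sub_eq_zero.mp (hinj h1 (by rw [mul_sub, ← mul_assoc, htg, sub_self]))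
  refine ⟨g, ⟨hg0, hgs, hgg, hgB.2.2, ?_⟩, hgB.1, hgB.2.1⟩
  rintro a ha
  have haB : a ∈ B := StAct.Fx_corner hgB.1 hgB.2.1 ha
  obtain ⟨h1, h2, h3⟩ := ha
  have gB : ∀ {y}, y ∈ B → g * y ∈ I t := fun hy =>
    memI.mpr ⟨b * _, hmul hb hy, by rw [hg, mul_assoc]⟩
  obtain ⟨μ, v, hv, hv0, hav⟩ := lr_eigen (I t) a (fun w hw => by
    have := gB (hmul haB (hIB hw))
    rwa [← mul_assoc, h1] at this) hgI hg0
  refine ⟨μ, ?_⟩
  by_contra hne
  set c := a - μ • g with hc
  have hc0 : c ≠ 0 := sub_ne_zero.mpr hne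
  have hcB : c ∈ B := Submodule.sub_mem _ haB (Submodule.smul_mem _ _ hgB)
  have hcv : c * v = 0 := by
    rw [hc, sub_mul, hav, smul_mul_assoc, hgy hv, sub_self]
  have hgc : g * c = c := by rw [hc, mul_sub, h1, mul_smul_comm, hgg]
  have hcg : c * g = c := by rw [hc, sub_mul, h2, smul_mul_assoc, hgg]
  have hIc : I c = I t := by
    refine hle c hcB hc0 ?_
    intro y hy
    obtain ⟨d, hd, rfl⟩ := memI.mp hy
    have := gB (hmul hcB hd)
    rwa [← mul_assoc, hgc] at this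
  refine hv0 (lr_inj (I t) c (fun w hw => ?_) (fun w hw => ?_) hv hcv)
  · rw [← hIc]; exact memI.mpr ⟨w, hIB hw, rfl⟩
  · rw [← hIc] at hw
    obtain ⟨d, hd, rfl⟩ := memI.mp hw
    exact ⟨g * d, gB hd, by rw [← mul_assoc, hcg]⟩

end Sta

end

end Vale.Agent.P092.H692
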